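import Vale.Agent.P088.R2.H349.EP.FuOk
import Vale.Agent.P088.R2.H871.INF.RetP
import Vale.Agent.P088.R2.H475.INF.LevR

/-!
# P088, stage 3, EST': the package exists (`PkEx`)
-/

open Set Filter MeasureTheory
open scoped ContDiff Topology Matrix

noncomputable section

namespace Vale.Agent.P088.R2.H794.EP

open Vale.Agent.P088.LR Vale.Agent.P088.HY Vale.Agent.P088.R2.H31.EP

variable {n : ℕ}

/-! ### Thresholds -/

/-- The slow exponential. -/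
theorem ev_slow : EvC fun q => 0 < q.τ ∧ q.τ ≤ q.es ∧
    H768.W.IsSlow q.es q.M₀ q.c' q.τ q.r₁ slB (H768.W.uu q.τ q.r₁) q.D := by
  have h : EvC fun q => 0 < q.c' → 0 < q.es → (0 < q.τ ∧ q.τ ≤ q.es ∧
      H768.W.IsSlow q.es q.M₀ q.c' q.τ q.r₁ slB (H768.W.uu q.τ q.r₁) q.D) := by
    refine EvC.at_M₀ (fun q t => 0 < q.c' → 0 < q.es →
      (0 < slC q.c' q.es * Real.log t / t ∧ slC q.c' q.es * Real.log t / t ≤ q.es ∧
      H768.W.IsSlow q.es t q.c' (slC q.c' q.es * Real.log t / t) (q.c' * t / 2) slB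
        (H768.W.uu (slC q.c' q.es * Real.log t / t) (q.c' * t / 2))
        (H768.W.Dp (slC q.c' q.es * Real.log t / t) (q.c' * t / 2)))) fun q => ?_
    by_cases h : 0 < q.c' ∧ 0 < q.es
    · obtain ⟨N₀, h1⟩ := (slow_ex q.c' q.es).choose_spec h.1 h.2
      filter_upwards [eventually_ge_atTop N₀] with t ht _ _
      exact h1.2.2 t ht
    · exact Eventually.of_forall fun _ a b => absurd ⟨a, b⟩ h
  refine (h.and EvC.pos).mono fun q hq => hq.1 hq.2.2.1.2.2.1 hq.2.2.1.2.2.2.1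

/-! The fixed cut-off of the correction. -/

theorem chi_smooth : ContDiff ℝ ∞ chi0 :=
  Real.smoothTransition.contDiff.comp ((contDiff_const.sub contDiff_id).div_const 3)

theorem chi_one {s : ℝ} (h : s ≤ 1) : chi0 s = 1 :=
  Real.smoothTransition.one_of_one_le (by linarith)

theorem chi_zero {s : ℝ} (h : 4 ≤ s) : chi0 s = 0 :=
  Real.smoothTransition.zero_of_nonpos (by linarith)

theorem chi_bd (s : ℝ) : 0 ≤ chi0 s ∧ chi0 s ≤ 1 :=
  ⟨Real.smoothTransition.nonneg _, Real.smoothTransition.le_one _⟩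

/-- The level of the sphere is nonnegative. -/
theorem l0_nonneg {q : Cst} {kap Gs : ℝ} (h2 : Gs ≤ 0) (h3 : 1 ≤ kap) (h4 : q.R ^ q.Ck ≤ kap)
    (hR : 1 ≤ q.R) (hC : 1 ≤ q.Ck) : 0 ≤ Real.log (kap / q.R) - q.R * Gs := by
  have h5 : q.R ≤ kap := by
    calc q.R = q.R ^ (1 : ℝ) := (Real.rpow_one _).symm
      _ ≤ q.R ^ q.Ck := Real.rpow_le_rpow_of_exponent_le hR hC
      _ ≤ kap := h4
  have h6 : 0 ≤ Real.log (kap / q.R) := Real.log_nonneg ((one_le_div (by linarith)).2 h5)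
  nlinarith

/-- helper475's level is the literal one where `gy ≥ 0`. -/
theorem levG_gy (hn : 1 ≤ n) {σ R kap Gs : ℝ} (h0 : 0 < σ) (h1 : σ ≤ 1 / 5000) (x : V n)
    (h : 0 ≤ T4.gy n σ (R⁻¹ • x)) : H475.levG n σ R kap Gs x = lv n σ R kap Gs x := by
  refine H475.levG_eq_lv hn h0 h1 ?_
  have h2 : T4.gy n σ (R⁻¹ • x) = (HY.sq (H475.wv n σ (R⁻¹ • x)) - 1) / (2 * σ) :=
    H475.gy_wv hn h0.ne' _
  rw [h2, le_div_iff₀ (by positivity), zero_mul] at h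
  have h3 := H475.th1_lt h0 h1
  have h4 : HY.sq (H475.wR n σ R x) = HY.sq (H475.wv n σ (R⁻¹ • x)) := rfl
  rw [h4]
  linarith

/-- The level function. -/
theorem lev_ok (hn : 1 ≤ n) {σ R kap Gs : ℝ} (h0 : 0 < σ) (h1 : σ ≤ 1 / 5000) (hR : 0 < R) :
    Lev n σ R kap Gs (H475.levG n σ R kap Gs) where
  sm := H475.levG_smooth h0 h1
  eq := fun x hx => H475.levG_near hn h0 h1 hR (by
    have h2 : √(HY.sq x) ≤ 5 / 4 * R := Real.sqrt_le_iff.2 ⟨by positivity, hx⟩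
    linarith)
  lit := rfl

/-- The retraction. -/
theorem ret_ok (hn : 1 ≤ n) {σ R kap Gs : ℝ} (h0 : 0 < σ) (h1 : σ ≤ 1 / 5000) (hR : 0 < R) :
    Ret n σ R (Real.log (kap / R) - R * Gs) (H475.levG n σ R kap Gs) (H871.INF.rP n σ R) where
  sm := (H871.INF.retF hn h0 (by linarith) hR).sm
  id := fun x hx => (H871.INF.retF hn h0 (by linarith) hR).idl (kap := kap) (Gs := Gs) hR
    (fun x h => levG_gy hn h0 h1 x h) (by linarith)
  lit := rfl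

/-- **Row EP-TOP-EX.** -/
theorem pkEx (hn : 1 ≤ n) : PkEx n := by
  have hU : EvC fun q => q.phL.2 q.M₀ ≤ q.R :=
    EvC.at_R (fun q t => q.phL.2 q.M₀ ≤ t) fun q => eventually_ge_atTop _
  have hR : EvC fun q => 2500 ≤ q.R :=
    EvC.at_R (fun q t => 2500 ≤ t) fun q => eventually_ge_atTop _
  have hσ : EvC fun q => q.σ ≤ 1 / 5000 := EvC.at_σ (fun _ t => t ≤ 1 / 5000) fun _ =>
    sml_le (by norm_num)
  refine (((((hU.and hR).and hσ).and ev_slow).and EvC.pos).and EvC.good).mono ?_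
  rintro q ⟨⟨⟨⟨⟨hU, hR⟩, hσ⟩, hτ0, hτ1, hsl⟩, ⟨hp1, hp2, hp3⟩⟩, ⟨hg1, hg2, hg3, hg4, hg5⟩, hph⟩
    s₁ s₂ kap Gs hrg h1 h2 h3 h4 h5
  have hR0 : 0 < q.R := by linarith
  have hσ0 : 0 < q.σ := hp2.2.1
  have hCk : 1 ≤ q.Ck := hp3.2.2.2.2.1
  have hl0 : 0 ≤ Real.log (kap / q.R) - q.R * Gs := l0_nonneg h2 h3 h4 (by linarith) hCk
  obtain ⟨L0, hL0⟩ : ∃ L0, L0 = Real.log (kap / q.R) - q.R * Gs := ⟨_, rfl⟩
  rw [← hL0] at hl0
  obtain ⟨Ψ, hΨ⟩ := hg3.2 q.M₀ (hg4.Ma.trans hg5) (2 * L0 + 22 / 10 * q.R) (2 * L0 + 45 / 10 * q.R)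
    (2 * L0 + 47 / 10 * q.R) (by linarith) (by linarith) (by linarith)
  have hC4 : 1 ≤ q.C₄ := hp2.2.2.2.2.2.2
  have hLam : 1 ≤ q.L₄ := by
    rw [Cst.L₄, le_div_iff₀ hσ0]
    linarith
  obtain ⟨ΘL, hΘL⟩ := H313.Th.exists_thL.choose_spec.2 q.A₄ q.L₄ (L0 + 26 / 10 * q.R)
    (3 / 10 * q.R) (Real.exp_pos _) hLam (by linarith)
  have hsR : 50 ≤ √q.R := Real.le_sqrt_of_sq_le (by linarith)
  have hsR0 : 0 < √q.R := by linarith
  obtain ⟨ΘT, hΘT⟩ := H313.Th.exists_thL.choose_spec.2 (q.R ^ 4) 1 ((L0 + 26 / 10 * q.R) / √q.R)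
    (8 / 100 * √q.R) (by positivity) le_rfl (by linarith)
  have hΘs : ContDiff ℝ ∞ fun t => ΘL t + √q.R * ΘT (t / √q.R) :=
    hΘL.sm.add (contDiff_const.mul (hΘT.sm.comp (contDiff_id.div_const _)))
  have hΘ0 : ∀ t, t ≤ L0 + 26 / 10 * q.R → ΘL t + √q.R * ΘT (t / √q.R) = 0 := fun t ht => by
    rw [hΘL.ze t ht, hΘT.ze (t / √q.R) (div_le_div_of_nonneg_right ht hsR0.le)]
    simp
  let d : Pk n := ⟨Ψ, q.Φ₁, q.μ₁, chi0, fun t => ΘL t + √q.R * ΘT (t / √q.R), ΘL, ΘT,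
    H871.INF.rP n q.σ q.R, H475.levG n q.σ q.R kap Gs, s₁, s₂, kap, Gs⟩
  refine ⟨d, ?_, rfl, rfl, rfl, rfl⟩
  exact
    { ok := H349.EP.fu_ok hp1.2.1 hp2.2.2.1 (by linarith [hp3.1]) hΨ.sm hph.isμ.sm chi_smooth hsl
      rg := hrg
      G1 := h1
      G0 := h2
      k1 := h3
      kC := h4
      kη := h5
      eΦ := rfl
      eμ := rfl
      ph := hph
      top := by rw [hL0] at hΨ; exact hΨ
      sl := hsl
      τ0 := hτ0
      τ1 := hτ1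
      χs := chi_smooth
      χ1 := fun s => chi_one
      χ0 := fun s => chi_zero
      χb := chi_bd
      eχ := rfl
      lev := lev_ok hn hσ0 hσ hR0
      ret := ret_ok hn hσ0 hσ hR0
      Θs := hΘs
      Θ0 := by rw [hL0] at hΘ0; exact hΘ0
      Θe := rfl
      th := by rw [hL0] at hΘL; exact hΘL
      ts := by rw [hL0] at hΘT; exact hΘT }

end Vale.Agent.P088.R2.H794.EP
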